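import Vale.Agent.P144E.Ge5.A

/-!
Polygons.
-/

namespace Vale.Agent.P144Z

open Metric Filter Topology

/-- Bounded regular open sets whose boundary is a finite union of simple closed polygonal curves:
the edges join `v i` to `v (s i)`, and two edges only meet at the common vertex of consecutive
edges. -/
def IsPolygon (D : Set ℂ) : Prop :=
  IsOpen D ∧ Bornology.IsBounded D ∧ interior (closure D) = D ∧
    ∃ (ι : Type) (_ : Finite ι) (s : Equiv.Perm ι) (v : ι → ℂ),
      frontier D = ⋃ i, segment ℝ (v i) (v (s i)) ∧ (∀ i, v i ≠ v (s i)) ∧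
      ∀ i j, i ≠ j → ∀ z ∈ segment ℝ (v i) (v (s i)), z ∈ segment ℝ (v j) (v (s j)) →
        j = s i ∧ z = v j ∨ i = s j ∧ z = v i

namespace Ge5

/-- An affine function which vanishes at `z`. -/
def hp (a b : ℝ) (z w : ℂ) : ℝ := a * (w.re - z.re) + b * (w.im - z.im)

/-- The local condition of `IsPC1`. -/
def PCAt (D : Set ℂ) (z : ℂ) : Prop :=
  ∃ F G : ℂ → ℝ, ContDiff ℝ 1 F ∧ ContDiff ℝ 1 G ∧ F z = 0 ∧ G z = 0 ∧
    (∀ s t : ℝ, s • fderiv ℝ F z + t • fderiv ℝ G z = 0 → s = 0 ∧ t = 0) ∧ ∃ r > (0 : ℝ),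
      D ∩ ball z r = {w | 0 < F w} ∩ ball z r ∨
      D ∩ ball z r = {w | 0 < F w ∧ 0 < G w} ∩ ball z r ∨
      D ∩ ball z r = {w | 0 < F w ∨ 0 < G w} ∩ ball z r

variable {D : Set ℂ} {z : ℂ}

theorem pc_aff (a b c d : ℝ) (h : a * d - b * c ≠ 0)
    (hD : (∀ᶠ w in 𝓝 z, w ∈ D ↔ 0 < hp a b z w) ∨
      (∀ᶠ w in 𝓝 z, w ∈ D ↔ 0 < hp a b z w ∧ 0 < hp c d z w) ∨
      ∀ᶠ w in 𝓝 z, w ∈ D ↔ 0 < hp a b z w ∨ 0 < hp c d z w) : PCAt D z := by
  have h1 : ∀ a b : ℝ, ContDiff ℝ 1 (hp a b z) := fun a b =>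
    (contDiff_const.mul (Complex.reCLM.contDiff.sub contDiff_const)).add
      (contDiff_const.mul (Complex.imCLM.contDiff.sub contDiff_const))
  have h2 : ∀ a b : ℝ, fderiv ℝ (hp a b z) z = a • Complex.reCLM + b • Complex.imCLM := fun a b =>
    (((Complex.reCLM.hasFDerivAt.sub_const _).const_mul a).add
      ((Complex.imCLM.hasFDerivAt.sub_const _).const_mul b)).fderiv
  refine ⟨hp a b z, hp c d z, h1 a b, h1 c d, by simp [hp], by simp [hp], fun s t e => ?_, ?_⟩
  · rw [h2, h2] at e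
    have e1 := DFunLike.congr_fun e 1
    have e2 := DFunLike.congr_fun e Complex.I
    simp at e1 e2
    exact ⟨(mul_eq_zero.1 (by linear_combination d * e1 - c * e2)).resolve_right h,
      (mul_eq_zero.1 (by linear_combination a * e2 - b * e1)).resolve_right h⟩
  · rcases hD with e | e | e
    · exact (ball_of_ev e).imp fun _ k => ⟨k.1, Or.inl k.2⟩
    · exact (ball_of_ev e).imp fun _ k => ⟨k.1, Or.inr (Or.inl k.2)⟩
    · exact (ball_of_ev e).imp fun _ k => ⟨k.1, Or.inr (Or.inr k.2)⟩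

theorem conv_hp (a b : ℝ) (z : ℂ) : Convex ℝ {w | 0 < hp a b z w} := by
  have h := convex_halfSpace_gt (𝕜 := ℝ) (f := fun w : ℂ => a * w.re + b * w.im)
    ⟨fun x y => by simp; ring, fun c x => by simp; ring⟩ (a * z.re + b * z.im)
  rwa [show {w | 0 < hp a b z w} = {w : ℂ | a * z.re + b * z.im < a * w.re + b * w.im} from
    Set.ext fun w => by
      simp only [Set.mem_ofPred_eq, hp]
      constructor <;> intro <;> linarith]

theorem two (ho : IsOpen D) (hr : interior (closure D) = D) (hz : z ∈ frontier D) {U V : Set ℂ}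
    (hU : ∀ r > 0, IsPreconnected (U ∩ ball z r)) (hV : ∀ r > 0, IsPreconnected (V ∩ ball z r))
    (h : ∀ᶠ w in 𝓝 z, w ∉ frontier D ↔ w ∈ U ∨ w ∈ V) :
    (∀ᶠ w in 𝓝 z, w ∈ D ↔ w ∈ U) ∨ ∀ᶠ w in 𝓝 z, w ∈ D ↔ w ∈ V := by
  obtain ⟨r, r0, h⟩ := Metric.eventually_nhds_iff_ball.1 h
  have hb := ball_mem_nhds z r0
  have key : ∀ W : Set ℂ, IsPreconnected (W ∩ ball z r) → (∀ w ∈ W, w ∈ U ∨ w ∈ V) →
      W ∩ ball z r ⊆ D ∨ W ∩ ball z r ⊆ (closure D)ᶜ := fun W hW e =>
    hW.subset_or_subset ho isClosed_closure.isOpen_compl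
      (Set.disjoint_left.2 fun w h1 h2 => h2 (subset_closure h1)) fun w hw => by
        by_contra h1
        rw [Set.mem_union, not_or, Set.mem_compl_iff, not_not] at h1
        exact (h w hw.2).2 (e w hw.1) ⟨h1.2, fun h2 => h1.1 (interior_subset h2)⟩
  have hD : ∀ w ∈ ball z r, w ∈ D → w ∈ U ∨ w ∈ V := fun w hw h1 =>
    (h w hw).1 fun h2 => h2.2 (by rwa [ho.interior_eq])
  rcases key U (hU r r0) fun _ => Or.inl with a | a <;>
    rcases key V (hV r r0) fun _ => Or.inr with b | b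
  · refine (hz.2 ?_).elim
    rw [ho.interior_eq, ← hr]
    refine mem_interior_iff_mem_nhds.2 (mem_of_superset hb fun w hw => ?_)
    by_cases h1 : w ∈ frontier D
    · exact h1.1
    · exact subset_closure (((h w hw).1 h1).elim (fun e => a ⟨e, hw⟩) fun e => b ⟨e, hw⟩)
  · exact Or.inl (mem_of_superset hb fun w hw => ⟨fun h1 => (hD w hw h1).resolve_right
      fun e => b ⟨e, hw⟩ (subset_closure h1), fun e => a ⟨e, hw⟩⟩)
  · exact Or.inr (mem_of_superset hb fun w hw => ⟨fun h1 => (hD w hw h1).resolve_left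
      fun e => a ⟨e, hw⟩ (subset_closure h1), fun e => b ⟨e, hw⟩⟩)
  · obtain ⟨w, hw, h1⟩ := mem_closure_iff_nhds.1 hz.1 _ hb
    exact ((hD w hw h1).elim (fun e => a ⟨e, hw⟩ (subset_closure h1))
      fun e => b ⟨e, hw⟩ (subset_closure h1)).elim

theorem rays (ho : IsOpen D) (hr : interior (closure D) = D) (hz : z ∈ frontier D) {a b : ℂ}
    (ha : a ≠ 0) (hb : b ≠ 0) (hn : ∀ c > (0 : ℝ), b ≠ c • a)
    (h : ∀ᶠ w in 𝓝 z, w ∈ frontier D ↔
      (∃ t ≥ (0 : ℝ), w = z + t • a) ∨ ∃ t ≥ (0 : ℝ), w = z + t • b) : PCAt D z := by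
  have hc := fun a b r (_ : r > 0) => ((conv_hp a b z).inter (convex_ball z r)).isPreconnected
  have n0 : 0 < a.re ^ 2 + a.im ^ 2 := by
    rw [sq, sq, ← Complex.normSq_apply]
    exact Complex.normSq_pos.2 ha
  by_cases hΔ : a.re * b.im - a.im * b.re = 0
  · obtain ⟨c, rfl⟩ : ∃ c : ℝ, b = c • a :=
      ⟨(a.re * b.re + a.im * b.im) / (a.re ^ 2 + a.im ^ 2), Complex.ext
        (by simp only [Complex.smul_re, smul_eq_mul]; field_simp; linear_combination -a.im * hΔ)
        (by simp only [Complex.smul_im, smul_eq_mul]; field_simp; linear_combination a.re * hΔ)⟩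
    have c0 : c < 0 := lt_of_le_of_ne (not_lt.1 fun e => hn c e rfl) fun e => hb (by simp [e])
    have e := two ho hr hz (hc (-a.im) a.re) (hc a.im (-a.re))
      (h.mono fun w hw => by
        rw [hw, not_iff_comm]
        simp only [Set.mem_ofPred_eq, hp, not_or, not_lt]
        constructor
        · rintro ⟨h1, h2⟩
          obtain ⟨t, rfl⟩ : ∃ t : ℝ, w = z + t • a :=
            ⟨(a.re * (w.re - z.re) + a.im * (w.im - z.im)) / (a.re ^ 2 + a.im ^ 2), Complex.ext
              (by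
                simp only [Complex.add_re, Complex.smul_re, smul_eq_mul]
                field_simp
                linear_combination -a.im * le_antisymm h1 (by linarith))
              (by
                simp only [Complex.add_im, Complex.smul_im, smul_eq_mul]
                field_simp
                linear_combination a.re * le_antisymm h1 (by linarith))⟩
          rcases le_total 0 t with h3 | h3
          · exact Or.inl ⟨t, h3, rfl⟩
          · exact Or.inr ⟨t / c, div_nonneg_of_nonpos h3 c0.le, by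
              rw [smul_smul, div_mul_cancel₀ _ c0.ne]⟩
        · rintro (⟨t, -, rfl⟩ | ⟨t, -, rfl⟩) <;>
            simp only [Complex.add_re, Complex.add_im, Complex.smul_re, Complex.smul_im,
              smul_eq_mul] <;> constructor <;> linarith)
    exact e.elim (fun e => pc_aff _ _ a.re a.im (by linarith) (Or.inl e))
      fun e => pc_aff _ _ a.re a.im (by linarith) (Or.inl e)
  · obtain ⟨Δ, hd⟩ : ∃ Δ, Δ = a.re * b.im - a.im * b.re := ⟨_, rfl⟩
    rw [← hd] at hΔ
    have k : ∀ x y : ℝ, hp (b.im / Δ) (-b.re / Δ) z (z + x • a + y • b) = x ∧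
        hp (-a.im / Δ) (a.re / Δ) z (z + x • a + y • b) = y := fun x y => by
      simp only [hp, Complex.add_re, Complex.add_im, Complex.smul_re, Complex.smul_im, smul_eq_mul]
      constructor <;> field_simp <;> rw [hd] <;> ring
    have k' : ∀ a b w, hp (-a) (-b) z w = -hp a b z w := fun a b w => by
      simp only [hp]
      ring
    have e := two ho hr hz
      (U := {w | 0 < hp (b.im / Δ) (-b.re / Δ) z w} ∩ {w | 0 < hp (-a.im / Δ) (a.re / Δ) z w})
      (V := {w | 0 < hp (-(b.im / Δ)) (-(-b.re / Δ)) z w} ∪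
        {w | 0 < hp (-(-a.im / Δ)) (-(a.re / Δ)) z w})
      (fun r _ => (((conv_hp _ _ z).inter (conv_hp _ _ z)).inter (convex_ball z r)).isPreconnected)
      (fun r r0 => by
        have c1 : ContinuousAt (fun t : ℝ => z + t • a + t • b) 0 := by fun_prop
        obtain ⟨t, t1, t2⟩ := ((eventually_nhdsWithin_of_eventually_nhds (s := Set.Iio 0)
          (c1.eventually_mem (s := ball z r) (by simpa using ball_mem_nhds z r0))).and
            self_mem_nhdsWithin).exists
        rw [Set.union_inter_distrib_right]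
        exact IsPreconnected.union (z + t • a + t • b)
          ⟨by rw [Set.mem_ofPred_eq, k', (k t t).1]; exact neg_pos.2 t2, t1⟩
          ⟨by rw [Set.mem_ofPred_eq, k', (k t t).2]; exact neg_pos.2 t2, t1⟩
          (hc _ _ r r0) (hc _ _ r r0))
      (h.mono fun w hw => by
        rw [hw, not_iff_comm]
        obtain ⟨x, y, rfl⟩ : ∃ x y : ℝ, w = z + x • a + y • b :=
          ⟨hp (b.im / Δ) (-b.re / Δ) z w, hp (-a.im / Δ) (a.re / Δ) z w, Complex.ext
            (by
              simp only [hp, Complex.add_re, Complex.smul_re, smul_eq_mul]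
              field_simp
              rw [hd]
              ring)
            (by
              simp only [hp, Complex.add_im, Complex.smul_im, smul_eq_mul]
              field_simp
              rw [hd]
              ring)⟩
        simp only [Set.mem_inter_iff, Set.mem_union, Set.mem_ofPred_eq, k', (k x y).1, (k x y).2,
          not_or, not_lt, not_and_or]
        constructor
        · rintro ⟨h1 | h1, h2, h3⟩
          · exact Or.inr ⟨y, by linarith, by simp [le_antisymm h1 (by linarith)]⟩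
          · exact Or.inl ⟨x, by linarith, by simp [le_antisymm h1 (by linarith)]⟩
        · rintro (⟨t, t0, e⟩ | ⟨t, t0, e⟩)
          · have e1 := k t 0
            rw [zero_smul, add_zero, ← e, (k x y).1, (k x y).2] at e1
            exact ⟨Or.inr e1.2.le, by linarith [e1.1], by linarith [e1.2]⟩
          · have e1 := k 0 t
            rw [zero_smul, add_zero, ← e, (k x y).1, (k x y).2] at e1
            exact ⟨Or.inl e1.1.le, by linarith [e1.1], by linarith [e1.2]⟩)
    have d0 : b.im / Δ * (a.re / Δ) - -b.re / Δ * (-a.im / Δ) ≠ 0 := by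
      rw [show b.im / Δ * (a.re / Δ) - -b.re / Δ * (-a.im / Δ) = Δ⁻¹ by
        field_simp
        rw [hd]
        ring]
      exact inv_ne_zero hΔ
    exact e.elim (fun e => pc_aff _ _ _ _ d0 (Or.inr (Or.inl e)))
      fun e => pc_aff _ _ _ _ (by rwa [neg_mul_neg, neg_mul_neg]) (Or.inr (Or.inr e))

theorem seg_ray {p : ℂ} (h : p ≠ z) :
    ∀ᶠ w in 𝓝 z, w ∈ segment ℝ z p ↔ ∃ t ≥ (0 : ℝ), w = z + t • (p - z) := by
  have h0 := norm_pos_iff.2 (sub_ne_zero.2 h)
  refine mem_of_superset (ball_mem_nhds z h0) fun w hw => ?_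
  rw [Set.mem_ofPred_eq, segment_eq_image']
  refine ⟨fun ⟨t, t0, e⟩ => ⟨t, t0.1, e.symm⟩, fun ⟨t, t0, e⟩ => ⟨t, ⟨t0, ?_⟩, e.symm⟩⟩
  rw [e, mem_ball_iff_norm, add_sub_cancel_left, norm_smul, Real.norm_of_nonneg t0] at hw
  nlinarith

theorem segs (ho : IsOpen D) (hr : interior (closure D) = D) (hz : z ∈ frontier D) {p q : ℂ}
    (hp : p ≠ z) (hq : q ≠ z)
    (hn : ∃ y, ∀ w ∈ segment ℝ z p, w ∈ segment ℝ z q → w = z ∨ w = y)
    (h : ∀ᶠ w in 𝓝 z, w ∈ frontier D ↔ w ∈ segment ℝ z p ∨ w ∈ segment ℝ z q) : PCAt D z := by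
  refine rays ho hr hz (sub_ne_zero.2 hp) (sub_ne_zero.2 hq) (fun c c0 e => ?_)
    ((h.and ((seg_ray hp).and (seg_ray hq))).mono fun w hw => hw.1.trans (or_congr hw.2.1 hw.2.2))
  obtain ⟨y, hy⟩ := hn
  have k : ∀ t > (0 : ℝ), t ≤ min c 1 → z + t • (p - z) = y := fun t t0 t1 => by
    refine (hy _ ?_ ?_).resolve_left fun e1 => ?_
    · rw [segment_eq_image']
      exact ⟨t, ⟨t0.le, t1.trans (min_le_right _ _)⟩, rfl⟩
    · rw [segment_eq_image']
      refine ⟨t / c, ⟨by positivity, (div_le_one c0).2 (t1.trans (min_le_left _ _))⟩, ?_⟩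
      simp only [e, smul_smul, div_mul_cancel₀ _ c0.ne']
    · exact smul_ne_zero t0.ne' (sub_ne_zero.2 hp) (add_eq_left.1 e1)
  have m0 : 0 < min c 1 := lt_min c0 one_pos
  have e1 := (k _ m0 le_rfl).trans (k _ (half_pos m0) (half_le_self m0.le)).symm
  exact (half_lt_self m0).ne' (smul_left_injective ℝ (sub_ne_zero.2 hp) (add_left_cancel e1))

end Ge5

open Ge5

theorem IsPolygon.isPC1 {D : Set ℂ} (h : IsPolygon D) : IsPC1 D := by
  obtain ⟨ho, hb, hr, ι, _, s, v, e, hv, hs⟩ := h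
  refine ⟨ho, hb, fun z hz => ?_⟩
  change PCAt D z
  have k : ∀ᶠ w in 𝓝 z, ∀ i, w ∈ segment ℝ (v i) (v (s i)) → z ∈ segment ℝ (v i) (v (s i)) :=
    eventually_all.2 fun i => by
      by_cases h : z ∈ segment ℝ (v i) (v (s i))
      · exact Eventually.of_forall fun _ _ => h
      · have c : IsClosed (segment ℝ (v i) (v (s i))) := by
          rw [segment_eq_image']
          exact (isCompact_Icc.image (by fun_prop)).isClosed
        exact mem_of_superset (c.isOpen_compl.mem_nhds h) fun w hw h1 => (hw h1).elim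
  by_cases h : ∃ j, z = v j
  · obtain ⟨j, rfl⟩ := h
    obtain ⟨i, rfl⟩ := s.surjective j
    have ne : s i ≠ i := fun e => hv i (by rw [e])
    refine segs ho hr hz (hv (s i)).symm (hv i) ⟨v i, fun w h1 h2 => ?_⟩ (k.mono fun w hw => ?_)
    · rw [segment_symm] at h2
      exact (hs _ _ ne w h1 h2).symm.imp And.right And.right
    · rw [e, Set.mem_iUnion, segment_symm ℝ _ (v i)]
      refine ⟨fun ⟨l, hl⟩ => ?_, fun h => h.elim (fun h => ⟨_, h⟩) fun h => ⟨_, h⟩⟩
      by_cases h1 : s i = l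
      · exact Or.inl (h1 ▸ hl)
      rcases hs _ _ h1 _ (left_mem_segment ℝ _ _) (hw l hl) with h2 | h2
      · exact (hv (s i) (h2.2.trans (by rw [h2.1]))).elim
      · exact Or.inr (s.injective h2.1 ▸ hl)
  · have h1 := hz
    rw [e, Set.mem_iUnion] at h1
    obtain ⟨i, hi⟩ := h1
    have hi' := hi
    rw [segment_eq_image'] at hi'
    obtain ⟨t, ⟨t0, t1⟩, ht⟩ := hi'
    simp only at ht
    have d0 := sub_ne_zero.2 (hv i).symm
    refine segs ho hr hz (p := v i) (q := v (s i)) (fun e => h ⟨_, e.symm⟩)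
      (fun e => h ⟨_, e.symm⟩) ⟨z, fun w h1 h2 => Or.inl ?_⟩ (k.mono fun w hw => ?_)
    · rw [segment_eq_image'] at h1 h2
      obtain ⟨a, ⟨a0, -⟩, rfl⟩ := h1
      obtain ⟨b, ⟨b0, -⟩, h2⟩ := h2
      have h3 : (b * (1 - t) + a * t) • (v (s i) - v i) = 0 := by
        simp only [← ht, Complex.real_smul] at h2 ⊢
        push_cast
        linear_combination h2
      have h4 : a * t = 0 := by
        have := (smul_eq_zero.1 h3).resolve_right d0
        nlinarith [mul_nonneg b0 (sub_nonneg.2 t1), mul_nonneg a0 t0]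
      have h5 := congrArg Complex.ofReal h4
      simp only [← ht, Complex.real_smul]
      push_cast at h5
      linear_combination (v i - v (s i)) * h5
    · rw [e, Set.mem_iUnion]
      have c := convex_segment (𝕜 := ℝ) (v i) (v (s i))
      refine ⟨fun ⟨l, hl⟩ => ?_, fun h => ⟨i, h.elim
        (fun h => c.segment_subset hi (left_mem_segment ℝ _ _) h)
        fun h => c.segment_subset hi (right_mem_segment ℝ _ _) h⟩⟩
      obtain rfl : i = l := by
        by_contra h1
        exact (hs _ _ h1 _ hi (hw l hl)).elim (fun h2 => h ⟨_, h2.2⟩) fun h2 => h ⟨_, h2.2⟩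
      rw [← insert_endpoints_openSegment] at hl
      rcases hl with rfl | rfl | hl
      · exact Or.inl (right_mem_segment ℝ _ _)
      · exact Or.inr (right_mem_segment ℝ _ _)
      rcases openSegment_subset_union (v i) (v (s i)) (z := z)
        ⟨t, by rw [AffineMap.lineMap_apply_module', add_comm]; exact ht⟩ hl with rfl | hl | hl
      · exact Or.inl (left_mem_segment ℝ _ _)
      · exact Or.inl (segment_symm ℝ (v i) z ▸ openSegment_subset_segment ℝ _ _ hl)
      · exact Or.inr (openSegment_subset_segment ℝ _ _ hl)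

theorem IsPolygon.tameW {D : Set ℂ} (h : IsPolygon D) : ∃ α > (0 : ℝ), TameW α D :=
  tameW_of_PC1 h.isPC1

/-- The L-shaped hexagon. -/
theorem isPC1_L : IsPC1 {z : ℂ | 0 < z.re ∧ z.re < 2 ∧ 0 < z.im ∧ z.im < 2 ∧
    (z.re < 1 ∨ z.im < 1)} := by
  have cr := Complex.continuous_re
  have ci := Complex.continuous_im
  have ho : IsOpen {z : ℂ | 0 < z.re ∧ z.re < 2 ∧ 0 < z.im ∧ z.im < 2 ∧ (z.re < 1 ∨ z.im < 1)} :=
    (isOpen_lt continuous_const cr).inter ((isOpen_lt cr continuous_const).inter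
      ((isOpen_lt continuous_const ci).inter ((isOpen_lt ci continuous_const).inter
        ((isOpen_lt cr continuous_const).union (isOpen_lt ci continuous_const)))))
  refine ⟨ho, (isBounded_ball (x := (0 : ℂ)) (r := 4)).subset fun z hz => ?_, fun z hz => ?_⟩
  · have := Complex.norm_le_abs_re_add_abs_im z
    rw [abs_of_pos hz.1, abs_of_pos hz.2.2.1] at this
    exact mem_ball_zero_iff.2 (by linarith [hz.2.1, hz.2.2.2.1])
  change PCAt _ z
  have h1 : z ∈ {z : ℂ | 0 ≤ z.re ∧ z.re ≤ 2 ∧ 0 ≤ z.im ∧ z.im ≤ 2 ∧ (z.re ≤ 1 ∨ z.im ≤ 1)} :=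
    closure_minimal (t := {z : ℂ | 0 ≤ z.re ∧ z.re ≤ 2 ∧ 0 ≤ z.im ∧ z.im ≤ 2 ∧
      (z.re ≤ 1 ∨ z.im ≤ 1)}) (fun w hw => ⟨hw.1.le, hw.2.1.le, hw.2.2.1.le, hw.2.2.2.1.le,
      hw.2.2.2.2.imp le_of_lt le_of_lt⟩) ((isClosed_le continuous_const cr).inter
        ((isClosed_le cr continuous_const).inter ((isClosed_le continuous_const ci).inter
          ((isClosed_le ci continuous_const).inter ((isClosed_le cr continuous_const).union
            (isClosed_le ci continuous_const)))))) hz.1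
  have h2 := hz.2
  rw [ho.interior_eq] at h2
  have k : ∀ (f : ℂ → ℝ) (c : ℝ), Continuous f →
      ∀ᶠ w in 𝓝 z, (c < f z → c < f w) ∧ (f z < c → f w < c) := fun f c hf =>
    (eventually_imp_distrib_left.2 fun h => continuousAt_const.eventually_lt hf.continuousAt h).and
      (eventually_imp_distrib_left.2 fun h => hf.continuousAt.eventually_lt continuousAt_const h)
  have k1 := ((k _ 0 cr).and ((k _ 1 cr).and (k _ 2 cr))).and
    ((k _ 0 ci).and ((k _ 1 ci).and (k _ 2 ci)))
  simp only [Set.mem_ofPred_eq] at h1 h2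
  have t1 : ∀ a b : ℝ, a * a + b * b = 1 → (∀ x y : ℝ,
      (((0 < z.re → 0 < x) ∧ (z.re < 0 → x < 0)) ∧ ((1 < z.re → 1 < x) ∧ (z.re < 1 → x < 1)) ∧
        (2 < z.re → 2 < x) ∧ (z.re < 2 → x < 2)) ∧ ((0 < z.im → 0 < y) ∧ (z.im < 0 → y < 0)) ∧
        ((1 < z.im → 1 < y) ∧ (z.im < 1 → y < 1)) ∧ (2 < z.im → 2 < y) ∧ (z.im < 2 → y < 2) →
      (0 < x ∧ x < 2 ∧ 0 < y ∧ y < 2 ∧ (x < 1 ∨ y < 1) ↔ 0 < a * (x - z.re) + b * (y - z.im))) →
      PCAt {z : ℂ | 0 < z.re ∧ z.re < 2 ∧ 0 < z.im ∧ z.im < 2 ∧ (z.re < 1 ∨ z.im < 1)} z :=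
    fun a b e h => pc_aff a b (-b) a (by linarith) (Or.inl (k1.mono fun w hw => h _ _ hw))
  by_cases a1 : z.re = 0
  · by_cases b1 : z.im = 0
    · exact pc_aff 1 0 0 1 (by norm_num) (Or.inr (Or.inl (k1.mono fun w hw => by
        simp only [Set.mem_ofPred_eq, hp]; grind)))
    by_cases b2 : z.im = 2
    · exact pc_aff 1 0 0 (-1) (by norm_num) (Or.inr (Or.inl (k1.mono fun w hw => by
        simp only [Set.mem_ofPred_eq, hp]; grind)))
    · exact t1 1 0 (by norm_num) (by grind)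
  by_cases a2 : z.re = 2
  · by_cases b1 : z.im = 0
    · exact pc_aff (-1) 0 0 1 (by norm_num) (Or.inr (Or.inl (k1.mono fun w hw => by
        simp only [Set.mem_ofPred_eq, hp]; grind)))
    by_cases b2 : z.im = 1
    · exact pc_aff (-1) 0 0 (-1) (by norm_num) (Or.inr (Or.inl (k1.mono fun w hw => by
        simp only [Set.mem_ofPred_eq, hp]; grind)))
    · exact t1 (-1) 0 (by norm_num) (by grind)
  by_cases b1 : z.im = 0
  · exact t1 0 1 (by norm_num) (by grind)
  by_cases a3 : z.re = 1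
  · by_cases b2 : z.im = 1
    · exact pc_aff (-1) 0 0 (-1) (by norm_num) (Or.inr (Or.inr (k1.mono fun w hw => by
        simp only [Set.mem_ofPred_eq, hp]; grind)))
    by_cases b3 : z.im = 2
    · exact pc_aff (-1) 0 0 (-1) (by norm_num) (Or.inr (Or.inl (k1.mono fun w hw => by
        simp only [Set.mem_ofPred_eq, hp]; grind)))
    · exact t1 (-1) 0 (by norm_num) (by grind)
  · exact t1 0 (-1) (by norm_num) (by grind)

end Vale.Agent.P144Z
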