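import Vale.Agent.P144E.Stmt

/-!
Domains with piecewise continuously differentiable boundary have corners of bounded angle.
-/

namespace Vale.Agent.P144Z

open Metric Filter Topology

theorem Corner.mono {α α' : ℝ} {D : Set ℂ} {z : ℂ} (h : Corner α D z) (hα : α' ≤ α) :
    Corner α' D z := fun κ hκ => by
  obtain ⟨r, hr, S₁, S₂, ν₁, ν₂, e1, e2, e3, e4, e5, e6⟩ := h κ hκ
  exact ⟨r, hr, S₁, S₂, ν₁, ν₂, e1, e2, hα.trans e3, e4, e5,
    e6.imp_right fun e => ⟨hα.trans e.1, e.2⟩⟩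

theorem TameW.mono {α α' : ℝ} {D : Set ℂ} (h : TameW α D) (hα : α' ≤ α) : TameW α' D :=
  ⟨h.1, h.2.1, fun z => (h.2.2 z).mono hα⟩

theorem TameW.of_tame {α : ℝ} {D : Set ℂ} (h : Tame α D) : TameW α D := by
  refine ⟨h.1, h.2.1, fun z κ hκ => ?_⟩
  obtain ⟨r, hr, h1⟩ := h.2.2 κ hκ
  obtain ⟨S₁, S₂, ν₁, ν₂, e1, e2, e3, e4, e5, e6⟩ := h1 z
  exact ⟨r, hr, S₁, S₂, ν₁, ν₂, e1, e2, e3, e4, e5, Or.inl e6⟩

namespace Ge5

theorem ball_of_ev {D E : Set ℂ} {z : ℂ} (h : ∀ᶠ w in 𝓝 z, w ∈ D ↔ w ∈ E) :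
    ∃ r > (0 : ℝ), D ∩ ball z r = E ∩ ball z r := by
  obtain ⟨r, hr, h1⟩ := Metric.eventually_nhds_iff_ball.1 h
  exact ⟨r, hr, Set.ext fun w => and_congr_left fun hw => h1 w hw⟩

theorem ev_of_ball {D E : Set ℂ} {p z : ℂ} {r : ℝ} (h : D ∩ ball p r = E ∩ ball p r)
    (hz : z ∈ ball p r) : ∀ᶠ w in 𝓝 z, w ∈ D ↔ w ∈ E :=
  mem_of_superset (isOpen_ball.mem_nhds hz) fun w hw => by
    have := Set.ext_iff.1 h w
    simp only [Set.mem_inter_iff, hw, and_true] at this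
    exact this

/-- The gradient. -/
noncomputable def gr (F : ℂ → ℝ) (z : ℂ) : ℂ :=
  fderiv ℝ F z 1 + fderiv ℝ F z Complex.I * Complex.I

/-- The unit normal. -/
noncomputable def nu (F : ℂ → ℝ) (z : ℂ) : ℂ := ‖gr F z‖⁻¹ • gr F z

theorem norm_nu {F : ℂ → ℝ} {z : ℂ} (h : gr F z ≠ 0) : ‖nu F z‖ = 1 := by
  rw [nu, norm_smul, norm_inv, norm_norm, inv_mul_cancel₀ (norm_ne_zero_iff.2 h)]

theorem eg (F : ℂ → ℝ) (z v : ℂ) : fderiv ℝ F z v = v.re * (gr F z).re + v.im * (gr F z).im := by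
  conv_lhs => rw [show v = v.re • (1 : ℂ) + v.im • Complex.I by simp, map_add, map_smul, map_smul]
  simp [gr]

theorem cont_gr {F : ℂ → ℝ} (hF : ContDiff ℝ 1 F) : Continuous (gr F) := by
  have cD : Continuous (fderiv ℝ F) := hF.continuous_fderiv one_ne_zero
  unfold gr
  fun_prop

theorem cont_nu {F : ℂ → ℝ} (hF : ContDiff ℝ 1 F) {z : ℂ} (h : gr F z ≠ 0) :
    ContinuousAt (nu F) z :=
  ((cont_gr hF).continuousAt.norm.inv₀ (norm_ne_zero_iff.2 h)).smul (cont_gr hF).continuousAt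

theorem loc {F : ℂ → ℝ} (hF : ContDiff ℝ 1 F) {z : ℂ} (h : gr F z ≠ 0) {κ : ℝ} (hκ : 0 < κ) :
    ∃ S, Cone S (nu F z) κ ∧ (∀ᶠ w in 𝓝 z, 0 < F w ↔ w ∈ S) ∧ (F z = 0 → z ∈ frontier S) := by
  have g0 := norm_pos_iff.2 h
  obtain ⟨δ, δ0, hδ⟩ := Metric.continuous_iff.1 (hF.continuous_fderiv one_ne_zero) z
    (κ * ‖gr F z‖) (by positivity)
  have key : ∀ᶠ w in 𝓝 z, 0 < F w ↔ w ∈ {w | ∃ u, 0 < F u ∧ u ∈ ball z δ ∧ ∃ v : ℂ,
      κ * ‖v‖ ≤ v.re * (nu F z).re + v.im * (nu F z).im ∧ w = u + v} := by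
    refine mem_of_superset (ball_mem_nhds z δ0) fun w hw => ⟨fun h1 => ⟨w, h1, hw, 0, by simp,
      by simp⟩, ?_⟩
    rintro ⟨u, hu, h1, v, h2, rfl⟩
    have h4 := (convex_ball z δ).norm_image_sub_le_of_norm_fderiv_le'
      (φ := fderiv ℝ F z) (C := κ * ‖gr F z‖) (fun x _ => hF.differentiable one_ne_zero x)
      (fun x hx => by
        rw [← dist_eq_norm]
        exact (hδ x hx).le) h1 hw
    rw [add_sub_cancel_left, eg, Real.norm_eq_abs] at h4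
    simp only [nu, Complex.smul_re, Complex.smul_im, smul_eq_mul] at h2
    have h5 : κ * ‖v‖ * ‖gr F z‖ ≤ v.re * (gr F z).re + v.im * (gr F z).im := by
      rw [← le_div_iff₀ g0]
      exact h2.trans_eq (by ring)
    linarith [(abs_le.1 h4).1]
  refine ⟨_, ?_, key, fun h0 => ⟨?_, fun h1 => ?_⟩⟩
  · rintro _ ⟨u, h1, h2, v, h3, rfl⟩ v' h4
    refine ⟨u, h1, h2, v + v', ?_, add_assoc _ _ _⟩
    simp only [Complex.add_re, Complex.add_im]
    nlinarith [norm_add_le v v']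
  · by_contra h1
    have h2 : IsLocalMax F z := (key.and (isClosed_closure.isOpen_compl.mem_nhds h1)).mono
      fun w hw => h0 ▸ not_lt.1 fun h3 => hw.2 (subset_closure (hw.1.1 h3))
    exact h (by simp [gr, h2.fderiv_eq_zero])
  · exact (key.self_of_nhds.2 (interior_subset h1)).ne' h0

theorem corner_in {D : Set ℂ} {z : ℂ} (h : ∀ᶠ w in 𝓝 z, w ∈ D) : Corner 2 D z := fun κ _ => by
  obtain ⟨r, hr, e⟩ := ball_of_ev (D := D) (E := Set.univ ∩ Set.univ) (h.mono fun w hw => by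
    simp [hw])
  exact ⟨r, hr, Set.univ, Set.univ, 1, 1, norm_one, norm_one, by norm_num,
    fun _ _ _ _ => trivial, fun _ _ _ _ => trivial, Or.inl e⟩

theorem corner_out {D : Set ℂ} {z : ℂ} (h : ∀ᶠ w in 𝓝 z, w ∉ D) : Corner 2 D z := fun κ _ => by
  obtain ⟨r, hr, e⟩ := ball_of_ev (D := D) (E := ∅ ∩ ∅) (h.mono fun w hw => by simp [hw])
  exact ⟨r, hr, ∅, ∅, 1, 1, norm_one, norm_one, by norm_num, fun _ h => h.elim,
    fun _ h => h.elim, Or.inl e⟩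

variable {D : Set ℂ} {z : ℂ} {F G : ℂ → ℝ}

theorem corner_and (hF : ContDiff ℝ 1 F) (hG : ContDiff ℝ 1 G) (h1 : gr F z ≠ 0)
    (h2 : gr G z ≠ 0) (h : ∀ᶠ w in 𝓝 z, w ∈ D ↔ 0 < F w ∧ 0 < G w) :
    Corner ‖nu F z + nu G z‖ D z := fun κ hκ => by
  obtain ⟨S₁, a1, a2, -⟩ := loc hF h1 hκ
  obtain ⟨S₂, b1, b2, -⟩ := loc hG h2 hκ
  obtain ⟨r, hr, e⟩ := ball_of_ev (D := D) (E := S₁ ∩ S₂)
    ((h.and (a2.and b2)).mono fun w hw => hw.1.trans (and_congr hw.2.1 hw.2.2))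
  exact ⟨r, hr, S₁, S₂, _, _, norm_nu h1, norm_nu h2, le_rfl, a1, b1,
    Or.inl e⟩

theorem corner_one (hF : ContDiff ℝ 1 F) (h1 : gr F z ≠ 0) (h : ∀ᶠ w in 𝓝 z, w ∈ D ↔ 0 < F w) :
    Corner 2 D z :=
  (corner_and hF hF h1 h1 (h.mono fun _ hw => hw.trans and_self_iff.symm)).mono (by
    rw [← two_mul, norm_mul, norm_nu h1]
    simp)

theorem corner_or (hF : ContDiff ℝ 1 F) (hG : ContDiff ℝ 1 G) (h1 : gr F z ≠ 0)
    (h2 : gr G z ≠ 0) (h : ∀ᶠ w in 𝓝 z, w ∈ D ↔ 0 < F w ∨ 0 < G w) {α : ℝ} (a1 : α ≤ 2)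
    (a2 : α ≤ ‖nu F z + nu G z‖) (a3 : α ≤ ‖nu F z - nu G z‖) : Corner α D z := by
  have cF := hF.continuous.continuousAt (x := z)
  have cG := hG.continuous.continuousAt (x := z)
  rcases lt_trichotomy (F z) 0 with f | f | f
  · exact (corner_one hG h2 ((h.and (cF.eventually_lt continuousAt_const f)).mono fun w hw =>
      hw.1.trans (or_iff_right hw.2.not_gt))).mono a1
  · rcases lt_trichotomy (G z) 0 with g | g | g
    · exact (corner_one hF h1 ((h.and (cG.eventually_lt continuousAt_const g)).mono fun w hw =>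
        hw.1.trans (or_iff_left hw.2.not_gt))).mono a1
    · intro κ hκ
      obtain ⟨S₁, b1, b2, b3⟩ := loc hF h1 hκ
      obtain ⟨S₂, c1, c2, c3⟩ := loc hG h2 hκ
      obtain ⟨r, hr, e⟩ := ball_of_ev (D := D) (E := S₁ ∪ S₂)
        ((h.and (b2.and c2)).mono fun w hw => hw.1.trans (or_congr hw.2.1 hw.2.2))
      exact ⟨r, hr, S₁, S₂, _, _, norm_nu h1, norm_nu h2, a2, b1, c1,
        Or.inr ⟨a3, b3 f, c3 g, e⟩⟩
    · exact (corner_in ((h.and (continuousAt_const.eventually_lt cG g)).mono fun w hw =>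
        hw.1.2 (Or.inr hw.2))).mono a1
  · exact (corner_in ((h.and (continuousAt_const.eventually_lt cF f)).mono fun w hw =>
      hw.1.2 (Or.inl hw.2))).mono a1

theorem near {p : ℂ} {r : ℝ} (hF : ContDiff ℝ 1 F) (hG : ContDiff ℝ 1 G)
    (hi : ∀ s t : ℝ, s • fderiv ℝ F p + t • fderiv ℝ G p = 0 → s = 0 ∧ t = 0) (hr : 0 < r)
    (h : D ∩ ball p r = {w | 0 < F w} ∩ ball p r ∨
      D ∩ ball p r = {w | 0 < F w ∧ 0 < G w} ∩ ball p r ∨
      D ∩ ball p r = {w | 0 < F w ∨ 0 < G w} ∩ ball p r) :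
    ∃ α > (0 : ℝ), ∀ᶠ z in 𝓝 p, Corner α D z := by
  have hi' : ∀ s t : ℝ, s • gr F p + t • gr G p = 0 → s = 0 ∧ t = 0 := fun s t e =>
    hi s t (ContinuousLinearMap.ext fun v => by
      have e1 := congrArg Complex.re e
      have e2 := congrArg Complex.im e
      simp only [Complex.add_re, Complex.add_im, Complex.smul_re, Complex.smul_im, smul_eq_mul,
        Complex.zero_re, Complex.zero_im] at e1 e2
      simp only [add_apply, smul_apply, eg, smul_eq_mul, zero_apply]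
      linear_combination v.re * e1 + v.im * e2)
  have f0 : gr F p ≠ 0 := fun e => one_ne_zero (hi' 1 0 (by simp [e])).1
  have g0 : gr G p ≠ 0 := fun e => one_ne_zero (hi' 0 1 (by simp [e])).2
  have n0 : ‖gr F p‖⁻¹ ≠ 0 := inv_ne_zero (norm_ne_zero_iff.2 f0)
  have a1 : 0 < ‖nu F p + nu G p‖ := norm_pos_iff.2 fun e => n0 (hi' _ _ e).1
  have a2 : 0 < ‖nu F p - nu G p‖ := norm_pos_iff.2 fun e =>
    n0 (hi' _ (-‖gr G p‖⁻¹) (by rw [neg_smul, ← sub_eq_add_neg]; exact e)).1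
  refine ⟨min 2 (min (‖nu F p + nu G p‖ / 2) (‖nu F p - nu G p‖ / 2)), by positivity, ?_⟩
  filter_upwards [ball_mem_nhds p hr, (cont_gr hF).continuousAt.eventually_ne f0,
    (cont_gr hG).continuousAt.eventually_ne g0,
    continuousAt_const.eventually_lt ((cont_nu hF f0).add (cont_nu hG g0)).norm (half_lt_self a1),
    continuousAt_const.eventually_lt ((cont_nu hF f0).sub (cont_nu hG g0)).norm (half_lt_self a2)]
    with z b1 b2 b3 b4 b5
  have b6 := ((min_le_right 2 _).trans (min_le_left _ (‖nu F p - nu G p‖ / 2))).trans b4.le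
  rcases h with h | h | h
  · exact (corner_one hF b2 (ev_of_ball h b1)).mono (min_le_left _ _)
  · exact (corner_and hF hG b2 b3 (ev_of_ball h b1)).mono b6
  · exact corner_or hF hG b2 b3 (ev_of_ball h b1) (min_le_left _ _) b6
      (((min_le_right _ _).trans (min_le_right _ _)).trans b5.le)

end Ge5

open Ge5

theorem tameW_of_PC1 {D : Set ℂ} (h : IsPC1 D) : ∃ α > (0 : ℝ), TameW α D := by
  obtain ⟨ho, hb, h⟩ := h
  have cK : IsCompact (frontier D) :=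
    hb.isCompact_closure.of_isClosed_subset isClosed_frontier frontier_subset_closure
  obtain ⟨α, a0, ha⟩ := cK.induction_on (p := fun K => ∃ α > (0 : ℝ), ∀ z ∈ K, Corner α D z)
    ⟨1, one_pos, fun _ h => h.elim⟩
    (fun _ _ hs ⟨α, a0, ha⟩ => ⟨α, a0, fun z hz => ha z (hs hz)⟩)
    (fun _ _ ⟨α, a0, ha⟩ ⟨β, b0, hb⟩ => ⟨min α β, lt_min a0 b0, fun z hz => hz.elim
      (fun hz => (ha z hz).mono (min_le_left _ _)) fun hz => (hb z hz).mono (min_le_right _ _)⟩)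
    fun p hp => by
      obtain ⟨F, G, hF, hG, -, -, hi, r, hr, e⟩ := h p hp
      obtain ⟨α, a0, ha⟩ := near hF hG hi hr e
      exact ⟨_, mem_nhdsWithin_of_mem_nhds ha, α, a0, fun z hz => hz⟩
  refine ⟨min α 2, by positivity, ho, hb, fun z => ?_⟩
  by_cases h1 : z ∈ frontier D
  · exact (ha z h1).mono (min_le_left _ _)
  by_cases h2 : z ∈ D
  · exact (corner_in (ho.mem_nhds h2)).mono (min_le_right _ _)
  · refine (corner_out (mem_of_superset (isClosed_closure.isOpen_compl.mem_nhds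
      fun h3 => h1 ⟨h3, fun h4 => h2 (interior_subset h4)⟩) fun w hw h4 =>
        hw (subset_closure h4))).mono (min_le_right _ _)

end Vale.Agent.P144Z
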